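import Mathlib

open scoped ContDiff
open MeasureTheory Set Filter Topology

namespace Vale.Agent.P354n

/-- Coordinate space of all charts. -/
abbrev R4 : Type := ℝ × ℝ × ℝ × ℝ

/-- The four coordinates. In double null charts they are called u, v, theta1, theta2. -/
def cu (x : R4) : ℝ := x.1
def cv (x : R4) : ℝ := x.2.1
def c1 (x : R4) : ℝ := x.2.2.1
def c2 (x : R4) : ℝ := x.2.2.2

/-- The derivative of f at x in the direction a. -/
noncomputable def deriv (f : R4 → ℝ) (x a : R4) : ℝ := lineDeriv ℝ f x a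

/-- The function f is smooth on D. -/
def IsSmooth (f : R4 → ℝ) (D : Set R4) : Prop := ContDiffOn ℝ ∞ f D

/-- The function f is continuous on the open set D, and its distributional derivatives of
first order are in L^p on compact subsets of D. -/
def IsC0W1 (p : ENNReal) (f : R4 → ℝ) (D : Set R4) : Prop :=
  ContinuousOn f D ∧ ∀ a, ∃ h : R4 → ℝ, (∀ Q ⊆ D, IsCompact Q → MemLp h p (volume.restrict Q)) ∧
    ∀ φ, IsSmooth φ univ → HasCompactSupport φ → tsupport φ ⊆ D →
      ∫ x, f x * deriv φ x a = - ∫ x, h x * φ x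

/-- A Hausdorff space pt with an atlas of charts toE with values in R4, a field g of bilinear
forms and a field X of vectors: g e y a b is the value, at the point with coordinates y in the
chart e, on the vectors with components a, b, and X e y is the vector of components. -/
structure Spc where
  pt : Type
  [top : TopologicalSpace pt]
  [hausdorff : T2Space pt]
  Chart : Type
  toE : Chart → OpenPartialHomeomorph pt R4
  cover : ∀ p, ∃ e, p ∈ (toE e).source
  g : Chart → R4 → R4 → R4 → ℝ
  X : Chart → R4 → R4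

attribute [instance] Spc.top Spc.hausdorff

variable {M N : Spc}

/-- The domain of the chart e, its image, the chart and its inverse. -/
def On (e : M.Chart) (p : M.pt) : Prop := p ∈ (M.toE e).source
def tgt (e : M.Chart) : Set R4 := (M.toE e).target
def co (e : M.Chart) (p : M.pt) : R4 := M.toE e p
def inv (e : M.Chart) (y : R4) : M.pt := (M.toE e).symm y

/-- f is smooth, isometric, and preserves the time orientation. In charts f is F. -/
def IsIsom (f : M.pt → N.pt) : Prop :=
  ∀ e e' F, F = (fun y => co e' (f (inv e y))) → ∀ y ∈ tgt e, On e' (f (inv e y)) →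
    ContDiffAt ℝ ∞ F y ∧
    (∀ a b, M.g e y a b = N.g e' (F y) (lineDeriv ℝ F y a) (lineDeriv ℝ F y b)) ∧
    N.g e' (F y) (lineDeriv ℝ F y (M.X e y)) (N.X e' (F y)) < 0

/-- The Minkowski form. -/
def mink (a b : R4) : ℝ := -(cu a * cu b) + cv a * cv b + c1 a * c1 b + c2 a * c2 b

/-- The atlas of M is smooth, g is a Lorentzian metric of signature (-,+,+,+), whose
components in charts have the regularity Reg, and X defines a time orientation. -/
structure IsSpacetime (Reg : (R4 → ℝ) → Set R4 → Prop) (M : Spc) : Prop where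
  tensor : IsIsom (M := M) (N := M) id
  signature : ∀ e, ∀ y ∈ tgt e, ∃ L : R4 → R4, IsLinearMap ℝ L ∧ L.Injective ∧
    ∀ a b, M.g e y a b = mink (L a) (L b)
  timelike : ∀ e, ∀ y ∈ tgt e, M.g e y (M.X e y) (M.X e y) < 0
  continuous : ∀ e, ContinuousOn (M.X e) (tgt e)
  regular : ∀ e a b, Reg (fun y => M.g e y a b) (tgt e)

/-- The curve c is C^1 on the interval I, its velocity w is timelike and future directed, and
g(w,w) < -m. -/
def IsFutureCurve (M : Spc) (m : ℝ) (I : Set ℝ) (c : ℝ → M.pt) : Prop :=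
  ContinuousOn c I ∧ ∀ t ∈ I, ∀ e, On e (c t) → ContDiffWithinAt ℝ 1 (fun s => co e (c s)) I t ∧
    ∀ y w, y = co e (c t) → w = derivWithin (fun s => co e (c s)) I t →
      M.g e y w w < -m ∧ M.g e y w (M.X e y) < 0

/-- The map iota and the curve c form a future extension of M to N, whose metric has the
regularity Reg. -/
structure IsFutureExtension (Reg : (R4 → ℝ) → Set R4 → Prop) (M N : Spc) (ι : M.pt → N.pt)
    (c : ℝ → N.pt) : Prop where
  spacetime : IsSpacetime Reg N
  embedding : IsOpenEmbedding ι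
  isometry : IsIsom ι
  proper : range ι ≠ univ
  curve : IsFutureCurve N 0 (Icc 0 1) c
  curve_mem : ∀ t ∈ Ico (0 : ℝ) 1, c t ∈ range ι
  curve_end : c 1 ∈ frontier (range ι)

/-- The coordinate vectors of u and v. -/
def du : R4 := (1, 0, 0, 0)
def dv : R4 := (0, 1, 0, 0)

section

/- The functions C 0, ..., C 7 are the coefficients g11, 2 g12, g22, 2 om, s1, s2, w1, w2 of
-2 om du dv + gAB (dthetaA - sA dv - wA du) (dthetaB - sB dv - wB du). -/
variable (C : ℕ → R4 → ℝ)

/-- The components dthetaA - sA dv - wA du of the vector a. -/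
def h1 (x a : R4) : ℝ := c1 a - C 4 x * cv a - C 6 x * cu a
def h2 (x a : R4) : ℝ := c2 a - C 5 x * cv a - C 7 x * cu a

/-- The double null form at the point x, on the vector a. -/
def form (x a : R4) : ℝ :=
  C 0 x * h1 C x a ^ 2 + C 1 x * h1 C x a * h2 C x a + C 2 x * h2 C x a ^ 2 - C 3 x * cu a * cv a

end

/-- The L^p norm of f on the interval (b,0) is finite. -/
def InLp (p : ENNReal) (f : ℝ → ℝ) (b : ℝ) : Prop := eLpNorm f p (volume.restrict (Ioo b 0)) < ⊤

/-- On the part D of the chart e, the metric is in double null form with v increasing to the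
future, with smooth coefficients C; the coefficients, their angular derivatives and the torsion
are bounded by K, om and gAB are bounded below by 1/K, the v derivatives of gAB and om are
bounded by k(v), and their u derivatives by n(u), where k and n are integrable. -/
structure IsDNBox (M : Spc) (e : M.Chart) (C : ℕ → R4 → ℝ) (D : Set R4) (r K : ℝ)
    (k n : ℝ → ℝ) : Prop where
  subset : D ⊆ tgt e
  smooth : ∀ i, IsSmooth (C i) D
  metric : ∀ x ∈ D, (∀ a, M.g e x a a = form C x a) ∧ 0 < cv (M.X e x) ∧ 1 ≤ K * C 3 x ∧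
    (∀ a, cu a = 0 → cv a = 0 → ‖a‖ ^ 2 ≤ K * form C x a ∧
      ∀ i < 8, |C i x| ≤ K ∧ |deriv (C i) x a| ≤ K * ‖a‖) ∧
    (∀ i, i = 4 ∨ i = 5 → |deriv (C i) x du - deriv (C (i + 2)) x dv| ≤ K) ∧
    ∀ i < 4, |deriv (C i) x dv| ≤ k (cv x) ∧ |deriv (C i) x du| ≤ n (cu x)
  integrable : ∀ f, f = k ∨ f = n → Measurable f ∧ InLp 1 f (-r)

/-- The curve a, restricted to [0,1), ends at the point z of the closure of the part D of the
chart e. -/
def EndsAt {M : Spc} (a : ℝ → M.pt) (e : M.Chart) (D : Set R4) (z : R4) : Prop :=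
  (∀ᶠ t in 𝓝[<] 1, On e (a t) ∧ co e (a t) ∈ D) ∧ Tendsto (fun t => co e (a t)) (𝓝[<] 1) (𝓝 z)

/-- The part v < 0 of the cube of radius r about z. -/
def nullBox (z : R4) (r : ℝ) : Set R4 := {x | ‖x - z‖ < r ∧ cv x < 0}

/-- The part u < 0, v < 0 of the cube of radius r about z. -/
def cornerBox (z : R4) (r : ℝ) : Set R4 := {x | x ∈ nullBox z r ∧ cu x < 0}

/-- The curve a ends at a point z of a null hypersurface v = 0 which is a weak null
singularity: the v derivative of gAB is bounded by an integrable function k(v), but near every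
point, either it is not in L^p near v = 0 on a non null set of lines of direction v, near which
its tangential derivatives are bounded by its size and by a function l(v) in L^(p/2), or p is
infinite and it is not bounded near v = 0 after averaging over u, theta1, theta2. -/
def EndsAtFront (p : ENNReal) (M : Spc) (a : ℝ → M.pt) : Prop :=
  ∃ e C z r K k l, IsDNBox M e C (nullBox z r) r K k (fun _ => K) ∧ cv z = 0 ∧
    EndsAt a e (nullBox z r) z ∧ Measurable l ∧ InLp (p / 2) l (-r) ∧
    ∀ x ∈ nullBox z r, C 6 x = 0 ∧ C 7 x = 0 ∧ ∀ c > 0,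
      volume {y | y ∈ nullBox x c ∧
        (∀ b < 0, ∃ i < 3, ¬ InLp p (fun v => deriv (C i) (y.1, v, y.2.2) dv) b) ∧
        ∃ s > 0, ∀ w ∈ nullBox (y.1, 0, y.2.2) s, ∀ b, cv b = 0 → ∀ i < 3, ∃ j < 3,
          s * |deriv (fun y => deriv (C i) y dv) w b| ≤ (l (cv w) + |deriv (C j) w dv|) * ‖b‖} ≠ 0 ∨
      p = ⊤ ∧ ∃ i < 3, ∃ φ : ℝ × ℝ × ℝ → ℝ, ContDiff ℝ 1 φ ∧
        tsupport φ ⊆ Metric.ball (x.1, x.2.2) c ∧
        ¬ InLp p (fun v => ∫ y, φ y * deriv (C i) (y.1, v, y.2) dv) (-c)

/-- The curve a ends at a point z of the sphere u = v = 0 where the null hypersurfaces u = 0 and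
v = 0 meet; curves that end elsewhere on these end at weak null singularities. -/
def EndsAtCorner (p : ENNReal) (M : Spc) (a : ℝ → M.pt) : Prop :=
  ∃ e C z r K k, IsDNBox M e C (cornerBox z r) r K k k ∧ cu z = 0 ∧ cv z = 0 ∧
    EndsAt a e (cornerBox z r) z ∧ ∀ b, IsFutureCurve M 0 (Ico 0 1) b → ∀ y,
      EndsAt b e (cornerBox z r) y → ‖y - z‖ < r → cu y * cv y = 0 → cu y + cv y < 0 →
      EndsAtFront p M b

/-- For s arbitrarily close to 1, the curve a from s to t can be deformed through future timelike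
curves with the same ends to arbitrarily long ones. -/
def IsFar (M : Spc) (a : ℝ → M.pt) : Prop :=
  ∀ b < 1, ∃ s ∈ Ioo b 1, ∀ L, ∃ t ∈ Ioo s 1, ∃ H : ℝ × ℝ → M.pt,
    ContinuousOn H (Icc 0 1 ×ˢ Icc 0 1) ∧ (∀ x, H (0, x) = a (s + (t - s) * x)) ∧
    (∀ y ∈ Icc (0 : ℝ) 1, IsFutureCurve M 0 (Icc 0 1) (fun x => H (y, x)) ∧
      H (y, 0) = a s ∧ H (y, 1) = a t) ∧
    IsFutureCurve M L (Icc 0 1) (fun x => H (1, x))

/-- The three kinds of ends of future timelike curves. -/
def Ends (p : ENNReal) (M : Spc) (a : ℝ → M.pt) : Prop :=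
  EndsAtFront p M a ∨ EndsAtCorner p M a ∨ IsFar M a

/-- Every future timelike curve without future end point has one of these kinds of ends. -/
def AllEnd (p : ENNReal) (M : Spc) : Prop :=
  ∀ a, IsFutureCurve M 0 (Ico 0 1) a → (∀ x, ¬ Tendsto a (𝓝[<] 1) (𝓝 x)) → Ends p M a

end Vale.Agent.P354n
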