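import Vale.Agent.P354p.FrontOpen
import Vale.Agent.P354a.A4

set_option linter.unusedSectionVars false
set_option maxSynthPendingDepth 3

open scoped Manifold ContDiff
open MeasureTheory Set Topology Filter

namespace Vale.Agent.P354p

open Vale.Agent.P354 (P4 P3 norm_P4_le MB)

/-- The derivatives of a Lipschitz metric are bounded. -/
lemma lip_bound {M N : Spc} [Nonempty M.pt] {ι : M.pt → N.pt} {h : IsOpenEmbedding ι}
    {e : M.Chart} {C : ℕ → R4 → ℝ} {z0 : R4} {r K : ℝ} {k : ℝ → ℝ} {p : N.pt} {e' : N.Chart}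
    {A : R4 ≃L[ℝ] R4} {R0 Cc t0 r1 : ℝ} {f : P3 → ℝ}
    (hM : IsSpacetime IsSmooth M) (hg' : IsSpacetime (IsC0W1 ⊤) N) (hI : IsIsom ι)
    (hF : FrontData ⊤ M N ι h e C z0 r K k p e' A R0 Cc t0 r1 f) :
    ∃ L : ℝ, ∀ z ∈ P354w.DD t0 r1 f,
      ‖fderiv ℝ (fun z => (4:ℝ) • Gf (comp e') (co e' p) A z) z‖ ≤ L := by
  have hsm : ∀ i j, ContDiffOn ℝ ∞ (comp e' i j) (theta e e' ι h).target := fun i j =>
    comp_contDiffOn_target (h := h) (e := e) (e' := e') hM hg' hI (bas i) (bas j)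
  have hWo : IsOpen (yv (co e' p) A ⁻¹' (theta e e' ι h).target) :=
    (theta e e' ι h).open_target.preimage (yv_continuous (co e' p) A)
  have hG : ContDiffOn ℝ ∞ (fun z => (4:ℝ) • Gf (comp e') (co e' p) A z)
      (yv (co e' p) A ⁻¹' (theta e e' ι h).target) :=
    ContDiffOn.smul (f := fun _ => (4:ℝ)) contDiffOn_const (Gf_contDiffOn hsm (co e' p) A)
  have hc : ContinuousOn (fderiv ℝ (fun z => (4:ℝ) • Gf (comp e') (co e' p) A z))
      (yv (co e' p) A ⁻¹' (theta e e' ι h).target) :=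
    hG.continuousOn_fderiv_of_isOpen hWo (by norm_cast)
  have := volume_haar
  exact P354a.bdd_of_memLp hF.core.openD (hc.mono fun z hz => (hF.sub hz).1.1) hF.lp

end Vale.Agent.P354p
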