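import Vale.Agent.P354n.QLip
import Vale.Agent.P354n.LipBound
import Vale.Agent.P354a.A3

set_option linter.unusedSectionVars false
set_option maxSynthPendingDepth 3

open scoped Manifold ContDiff
open MeasureTheory Set Topology Filter

namespace Vale.Agent.P354p

open Vale.Agent.P354 (P4 P3 norm_P4_le MB)
open Vale.Agent.P354x (ins)

/-- (u, theta1, theta2) to (theta1, u, theta2) -/
def sw3 (y : ℝ × ℝ × ℝ) : P354w.P3 := (y.2.1, y.1, y.2.2)

lemma sw3_sw3 (y : ℝ × ℝ × ℝ) : sw3 (sw3 y) = y := rfl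

lemma sw3_cont : Continuous sw3 := by unfold sw3; fun_prop

lemma sw3_ins (v : ℝ) (y : ℝ × ℝ × ℝ) : Sp.symm (ins v (sw3 y)) = (y.1, v, y.2) := by
  rw [Sp_symm_apply]
  rfl

lemma sw3_mp : MeasurePreserving sw3 :=
  mp_sw (α := ℝ) (β := ℝ) (γ := ℝ)

lemma sw3_meas : MeasurableEmbedding sw3 := by
  have h1 : Measurable sw3 := sw3_cont.measurable
  exact (⟨⟨sw3, sw3, sw3_sw3, sw3_sw3⟩, h1, h1⟩ : (ℝ × ℝ × ℝ) ≃ᵐ P354w.P3).measurableEmbedding


/-- a product with compact support in an open set, one factor continuous there -/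
lemma cont_mul {X : Type} [TopologicalSpace X] {O : Set X} {ψ F : X → ℝ} (hψ : Continuous ψ)
    (hψO : tsupport ψ ⊆ O) (hF : ∀ y ∈ O, ContinuousAt F y) : Continuous fun y => ψ y * F y := by
  apply continuous_of_tsupport
  intro y hy
  have h1 : tsupport (fun y => ψ y * F y) ⊆ tsupport ψ := by
    refine closure_mono ?_
    intro y hy h0
    exact hy (by simp only; rw [h0, zero_mul])
  exact hψ.continuousAt.mul (hF y (hψO (h1 hy)))

lemma int_mul {X : Type} [TopologicalSpace X] [MeasurableSpace X] [OpensMeasurableSpace X]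
    {μ : Measure X} [IsFiniteMeasureOnCompacts μ] {O : Set X} {ψ F : X → ℝ}
    (hψ : Continuous ψ) (hψc : HasCompactSupport ψ)
    (hψO : tsupport ψ ⊆ O) (hF : ∀ y ∈ O, ContinuousAt F y) : Integrable (fun y => ψ y * F y) μ :=
  (cont_mul hψ hψO hF).integrable_of_hasCompactSupport hψc.mul_right

section
variable {M : Spc} {e : M.Chart} {C : ℕ → R4 → ℝ} {z0 : R4} {r K : ℝ} {k : ℝ → ℝ}

lemma slice_bd (hB : FrontBox M e C z0 r K k) {O : Set P354w.P3} {v : ℝ}
    (hMB : ∀ y ∈ O, ins v y ∈ MB (Sp z0) r) {ψ : P354w.P3 → ℝ} (hψ : Continuous ψ)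
    (hψc : HasCompactSupport ψ) (hψO : tsupport ψ ⊆ O) {i : ℕ} (hi : i < 3) {B : ℝ}
    (hBd : |∫ y, ψ y * fderiv ℝ (fun z => 4 * C i (Sp.symm z)) (ins v y)
      (P354w.e4 ((toW C).scale 4) (ins v y))| ≤ B) :
    |∫ y, ψ y * deriv (C i) (Sp.symm (ins v y)) dv| ≤ B + K ^ 2 * ∫ y, |ψ y| := by
  have hins : Continuous (fun y : P354w.P3 => ins v y) := by unfold P354x.ins; fun_prop
  have hO := nullBox_isOpen z0 r
  have hMo := MB_isOpen (Sp z0) r
  have hxm : ∀ y ∈ O, Sp.symm (ins v y) ∈ nullBox z0 r := fun y hy => Sp_symm_mem.1 (hMB y hy)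
  have hSi : Continuous (fun y : P354w.P3 => Sp.symm (ins v y)) := Sp.symm.continuous.comp hins
  -- continuity of the two factors
  have hF : ∀ y ∈ O, ContinuousAt (fun y => deriv (C i) (Sp.symm (ins v y)) dv) y := by
    intro y hy
    have h1 : ContDiffOn ℝ 1 (fun x => deriv (C i) x dv) (nullBox z0 r) :=
      (((hB.dn.smooth i).fderiv_of_isOpen hO (m := 1) (by norm_cast)).clm_apply
        contDiffOn_const).congr (fun w hw => deriv_eq (hB.diff hw i) dv)
    have h2 : ContinuousAt (fun x => deriv (C i) x dv) (Sp.symm (ins v y)) :=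
      (h1.continuousOn).continuousAt (hO.mem_nhds (hxm y hy))
    exact ContinuousAt.comp (g := fun x => deriv (C i) x dv)
      (f := fun y => Sp.symm (ins v y)) h2 hSi.continuousAt
  have hH : ∀ y ∈ O, ContinuousAt (fun y => fderiv ℝ (fun z => 4 * C i (Sp.symm z)) (ins v y)
      (P354w.e4 ((toW C).scale 4) (ins v y))) y := by
    intro y hy
    have hsm := hB.smooth4
    have g0 : ContDiffOn ℝ 1 (fun z => 4 * C i (Sp.symm z)) (MB (Sp z0) r) := by
      interval_cases i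
      · exact hsm.g11
      · exact hsm.g12
      · exact hsm.g22
    have h1 : ContinuousOn (fderiv ℝ (fun z => 4 * C i (Sp.symm z))) (MB (Sp z0) r) :=
      g0.continuousOn_fderiv_of_isOpen hMo le_rfl
    have h2 : ContinuousAt (fderiv ℝ (fun z => 4 * C i (Sp.symm z))) (ins v y) :=
      h1.continuousAt (hMo.mem_nhds (hMB y hy))
    have h3 : ContinuousAt (fun z => P354w.e4 ((toW C).scale 4) z) (ins v y) := by
      have s1 := hsm.s1.continuousOn.continuousAt (hMo.mem_nhds (hMB y hy))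
      have s2 := hsm.s2.continuousOn.continuousAt (hMo.mem_nhds (hMB y hy))
      unfold P354w.e4
      exact s1.prodMk (continuousAt_const.prodMk (continuousAt_const.prodMk s2))
    have h4 : ContinuousAt (fun z => fderiv ℝ (fun z => 4 * C i (Sp.symm z)) z
        (P354w.e4 ((toW C).scale 4) z)) (ins v y) := h2.clm_apply h3
    exact ContinuousAt.comp (g := fun z => fderiv ℝ (fun z => 4 * C i (Sp.symm z)) z
        (P354w.e4 ((toW C).scale 4) z)) (f := fun y => ins v y) h4 hins.continuousAt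
  have i1 : Integrable (fun y => ψ y * deriv (C i) (Sp.symm (ins v y)) dv) :=
    int_mul hψ hψc hψO hF
  have i2 := int_mul (μ := volume) hψ hψc hψO hH
  have i3 : Integrable (fun y => |ψ y|) := (hψ.integrable_of_hasCompactSupport hψc).abs
  have key : |4 * ∫ y, ψ y * deriv (C i) (Sp.symm (ins v y)) dv| ≤ B + 4 * K ^ 2 * ∫ y, |ψ y| := by
    have e1 : 4 * ∫ y, ψ y * deriv (C i) (Sp.symm (ins v y)) dv =
        (∫ y, ψ y * fderiv ℝ (fun z => 4 * C i (Sp.symm z)) (ins v y)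
          (P354w.e4 ((toW C).scale 4) (ins v y))) -
        ∫ y, (ψ y * fderiv ℝ (fun z => 4 * C i (Sp.symm z)) (ins v y)
          (P354w.e4 ((toW C).scale 4) (ins v y)) -
          4 * (ψ y * deriv (C i) (Sp.symm (ins v y)) dv)) := by
      rw [integral_sub i2 (i1.const_mul 4), integral_const_mul]
      ring
    rw [e1]
    refine (abs_sub _ _).trans (add_le_add hBd ?_)
    rw [← integral_const_mul, ← Real.norm_eq_abs]
    refine norm_integral_le_of_norm_le (i3.const_mul _) (Filter.Eventually.of_forall fun y => ?_)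
    rw [Real.norm_eq_abs]
    by_cases hy : y ∈ O
    · have h1 := e4_dv hB (hMB y hy) hi
      have e2 : ψ y * fderiv ℝ (fun z => 4 * C i (Sp.symm z)) (ins v y)
          (P354w.e4 ((toW C).scale 4) (ins v y)) -
          4 * (ψ y * deriv (C i) (Sp.symm (ins v y)) dv) =
          ψ y * (fderiv ℝ (fun z => 4 * C i (Sp.symm z)) (ins v y)
          (P354w.e4 ((toW C).scale 4) (ins v y)) -
          4 * deriv (C i) (Sp.symm (ins v y)) dv) := by ring
      rw [e2, abs_mul, mul_comm (4 * K ^ 2)]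
      exact mul_le_mul_of_nonneg_left h1 (abs_nonneg _)
    · have h0 : ψ y = 0 := by
        by_contra hne
        exact hy (hψO (subset_tsupport ψ hne))
      rw [h0]
      simp only [zero_mul, mul_zero, sub_self, abs_zero, Std.le_refl]
  rw [abs_mul, abs_of_pos (by norm_num : (0:ℝ) < 4)] at key
  have hB0 : 0 ≤ B := (abs_nonneg _).trans hBd
  linarith only [key, hB0]

end

/-- The averages of the v derivative are bounded if there is a Lipschitz extension. -/
theorem avg_bdd {M N : Spc} {ι : M.pt → N.pt} {h : IsOpenEmbedding ι} [Nonempty M.pt]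
    (hM : IsSpacetime IsSmooth M) (hg' : IsSpacetime (IsC0W1 ⊤) N) (hI : IsIsom ι)
    {e : M.Chart} {C : ℕ → R4 → ℝ} {z : R4} {r K : ℝ} {k : ℝ → ℝ} {p : N.pt} {e' : N.Chart}
    {A : R4 ≃L[ℝ] R4} {R0 Cc t0 r1 : ℝ} {f : P3 → ℝ} (hB : FrontBox M e C z r K k)
    (hF : FrontData ⊤ M N ι h e C z r K k p e' A R0 Cc t0 r1 f) {O : Set P354w.P3}
    (hO : IsOpen O) {v0 : ℝ}
    (hin : ∀ y ∈ O, ∀ v ∈ Ico v0 0, ∃ z ∈ P354w.DD t0 r1 f,
      PsiF e e' ι h (co e' p) A z = ins v y ∧ ‖z.2‖ ≤ r1 / 4)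
    {φ : ℝ × ℝ × ℝ → ℝ} (hφ : ContDiff ℝ 1 φ) (hφc : HasCompactSupport φ)
    (hφO : tsupport φ ⊆ sw3 ⁻¹' O) {i : ℕ} (hi : i < 3) {c1 : ℝ} (hc1 : c1 ≤ -v0) :
    InLp ⊤ (fun v => ∫ y, φ y * deriv (C i) (y.1, v, y.2) dv) (-c1) := by
  have hr := hB.dn.r_pos
  have hK := hB.K_one
  have hCc := hF.Cc_large
  obtain ⟨L, hL⟩ := lip_bound hM hg' hI hF
  have hMB : ∀ y ∈ O, ∀ v ∈ Ico v0 0, ins v y ∈ MB (Sp z) r := by
    intro y hy v hv
    obtain ⟨w, hw, hwy, _⟩ := hin y hy v hv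
    rw [← hwy]
    exact hF.core.maps (hF.core.DD_sub hw)
  -- the weight in the internal order
  set ψ : P354w.P3 → ℝ := fun y => φ (sw3 y) with hψ
  have hsm : ContDiff ℝ 1 sw3 := by unfold sw3; fun_prop
  have hψd : ContDiff ℝ 1 ψ := hφ.comp hsm
  have hψt : tsupport ψ ⊆ sw3 ⁻¹' (tsupport φ) := by
    refine closure_minimal ?_ ((isClosed_tsupport φ).preimage sw3_cont)
    intro y hy
    exact subset_tsupport φ hy
  have hψO : tsupport ψ ⊆ O := by
    intro y hy
    have h1 := hφO (hψt hy)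
    rw [mem_preimage, sw3_sw3] at h1
    exact h1
  have hψc : HasCompactSupport ψ := by
    have h1 : IsCompact (sw3 '' (tsupport φ)) := hφc.isCompact.image sw3_cont
    refine HasCompactSupport.of_support_subset_isCompact h1 ?_
    intro y hy
    exact ⟨sw3 y, subset_tsupport φ hy, sw3_sw3 y⟩
  obtain ⟨B, hBd⟩ := P354a.avg3 hF.core
    (cvF_int (hB.dn.intg k (Or.inl rfl)).2 _)
    (cvF_int (hB.dn.intg k (Or.inl rfl)).2 _)
    (by
      rw [setLIntegral_const]
      exact ENNReal.mul_ne_top ENNReal.ofReal_ne_top (by simp only [Real.volume_Icc, sub_neg_eq_add, ne_eq, ENNReal.ofReal_ne_top, not_false_eq_true]))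
    (fun _ => by nlinarith only [hK, hCc]) hL hO hin hψd hψc hψO
  have hfin : ∀ v ∈ Ico v0 0, |∫ y, φ y * deriv (C i) (y.1, v, y.2) dv| ≤
      B + K ^ 2 * ∫ y, |ψ y| := by
    intro v hv
    have e1 : (∫ y : ℝ × ℝ × ℝ, φ y * deriv (C i) (y.1, v, y.2) dv) =
        ∫ y, ψ y * deriv (C i) (Sp.symm (ins v y)) dv := by
      rw [← sw3_mp.integral_comp sw3_meas]
      refine integral_congr_ae (Filter.Eventually.of_forall fun y => ?_)
      have e2 := sw3_ins v (sw3 y)
      rw [sw3_sw3] at e2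
      simp only [hψ]
      rw [e2]
    rw [e1]
    refine slice_bd hB (fun y hy => hMB y hy v hv) hψd.continuous hψc hψO hi ?_
    have h1 := hBd v hv
    interval_cases i
    · exact h1.1
    · exact h1.2.1
    · exact h1.2.2
  show eLpNorm _ ⊤ (volume.restrict (Ioo (-c1) 0)) < ⊤
  rw [eLpNorm_exponent_top]
  refine eLpNormEssSup_lt_top_of_ae_bound (C := B + K ^ 2 * ∫ y, |ψ y|) ?_
  rw [ae_restrict_iff' measurableSet_Ioo]
  refine Filter.Eventually.of_forall fun v hv => ?_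
  rw [Real.norm_eq_abs]
  refine hfin v ⟨?_, hv.2⟩
  linarith only [hc1, hv.1]

/-- **No extension through a weak null singularity.** Near every point either a non null set of
bad lines with a local bound of the tangential derivatives, or unbounded averages. -/
theorem front_mix {pp : ENNReal} (hpp : 2 ≤ pp) {M N : Spc} {ι : M.pt → N.pt}
    (hM : IsSpacetime IsSmooth M)
    (hg' : IsSpacetime (IsC0W1 pp) N) (h : IsOpenEmbedding ι) (hI : IsIsom ι) {c : ℝ → N.pt}
    (hc : IsFutureCurve N 0 (Icc 0 1) c) {a : ℝ → M.pt} (ha : ∀ t ∈ Ico (0:ℝ) 1, ι (a t) = c t)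
    {e : M.Chart} {C : ℕ → R4 → ℝ} {z : R4} {r K : ℝ} {k l : ℝ → ℝ}
    (hB : FrontBox M e C z r K k) (hlm : Measurable l) (hlp : InLp (pp / 2) l (-r))
    (hain : EndsAt a e (nullBox z r) z)
    (hall : ∀ x ∈ nullBox z r, ∀ c > 0,
      volume {w | w ∈ nullBox x c ∧
        (∀ b < 0, ∃ i < 3, ¬ InLp pp (fun v => deriv (C i) (w + (v - cv w) • dv) dv) b) ∧
        ∃ ε > 0, ∀ x ∈ nullBox (w - cv w • dv) ε, ∀ b, cv b = 0 → ∀ i < 3, ∃ j < 3,
          ε * |deriv (fun y => deriv (C i) y dv) x b| ≤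
            (l (cv x) + |deriv (C j) x dv|) * ‖b‖} ≠ 0 ∨
      pp = ⊤ ∧ ∃ i < 3, ∃ φ : ℝ × ℝ × ℝ → ℝ, ContDiff ℝ 1 φ ∧
        tsupport φ ⊆ Metric.ball (x.1, x.2.2) c ∧
        ¬ InLp pp (fun v => ∫ y, φ y * deriv (C i) (y.1, v, y.2) dv) (-c)) : False := by
  have hne : Nonempty M.pt := ⟨a 0⟩
  have hr := hB.dn.r_pos
  have hK := hB.K_one
  obtain ⟨e', A, R0, Cc, t0, r1, f, hF, O, hO, ⟨y1, hy1⟩, v0, hv0, hin⟩ :=
    exists_frontData_open (h := h) hpp hM hg' hI hB hc ha hain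
  have hMB : ∀ y ∈ O, ∀ v ∈ Ico v0 0, ins v y ∈ MB (Sp z) r := by
    intro y hy v hv
    obtain ⟨w, hw, hwy, _⟩ := hin y hy v hv
    rw [← hwy]
    exact hF.core.maps (hF.core.DD_sub hw)
  -- a point and a neighbourhood
  have hv2 : v0 / 2 ∈ Ioo v0 0 := ⟨by linarith only [hv0], by linarith only [hv0]⟩
  set x : R4 := Sp.symm (ins (v0 / 2) y1) with hx
  have hxn : x ∈ nullBox z r := by
    have := hMB y1 hy1 (v0 / 2) ⟨hv2.1.le, hv2.2⟩
    rw [Sp_symm_mem] at this
    exact this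
  set O' : Set (ℝ × ℝ × ℝ) := sw3 ⁻¹' O with hO'
  have hO'o : IsOpen O' := hO.preimage sw3_cont
  have hxO : ((x.1, x.2.2) : ℝ × ℝ × ℝ) ∈ O' := by
    rw [hx, Sp_symm_apply]
    exact hy1
  obtain ⟨ε, hε, hball⟩ := Metric.isOpen_iff.1 hO'o _ hxO
  have hxr : 0 < r - ‖x - z‖ := by linarith only [hxn.1]
  set c1 : ℝ := min (min ε (-v0)) (r - ‖x - z‖) with hc1
  have hc10 : 0 < c1 := lt_min (lt_min hε (by linarith)) hxr
  have hc1ε : c1 ≤ ε := (min_le_left _ _).trans (min_le_left _ _)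
  have hc1v : c1 ≤ -v0 := (min_le_left _ _).trans (min_le_right _ _)
  have hc1r : c1 ≤ r - ‖x - z‖ := min_le_right _ _
  rcases hall x hxn c1 hc10 with h0 | ⟨rfl, i, hi, φ, hφ, hφs, hbad⟩
  · apply h0
    rw [measure_eq_zero_iff_ae_notMem]
    filter_upwards [bad_null hpp hB hlm hlp hF hO hv0 hin] with w hw hwm
    obtain ⟨hwx, hwb, ε1, hε1, htan⟩ := hwm
    refine hw ?_ ?_ hwb ε1 hε1 htan
    · refine ⟨?_, hwx.2⟩
      have h1 : w - z = (w - x) + (x - z) := by abel
      rw [h1]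
      exact (norm_add_le _ _).trans_lt (by linarith only [hc1r, hwx.1])
    · have h2 : ((w.1, w.2.2) : ℝ × ℝ × ℝ) ∈ O' := by
        apply hball
        rw [Metric.mem_ball, dist_eq_norm]
        have h3 := hwx.1
        have h4 : |w.1 - x.1| ≤ ‖w - x‖ := norm_fst_le (w - x)
        have h5 : ‖(w - x).2.2‖ ≤ ‖w - x‖ := (norm_snd_le (w - x).2).trans (norm_snd_le (w - x))
        have h6 : ((w.1, w.2.2) : ℝ × ℝ × ℝ) - (x.1, x.2.2) = (w.1 - x.1, (w - x).2.2) := rfl
        rw [h6, Prod.norm_def]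
        exact max_lt (lt_of_le_of_lt h4 (by linarith)) (lt_of_le_of_lt h5 (by linarith only [hc1ε, h3]))
      exact h2
  · apply hbad
    have hφO : tsupport φ ⊆ O' := fun y hy =>
      hball (Metric.ball_subset_ball hc1ε (hφs hy))
    have hφc : HasCompactSupport φ := by
      refine HasCompactSupport.of_support_subset_isCompact
        (isCompact_closedBall ((x.1, x.2.2) : ℝ × ℝ × ℝ) c1) ?_
      exact (subset_tsupport φ).trans (hφs.trans Metric.ball_subset_closedBall)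
    exact avg_bdd hM hg' hI hB hF hO hin hφ hφc hφO hi hc1v

end Vale.Agent.P354p
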