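import Vale.Agent.P354p.QCorner

set_option linter.unusedSectionVars false
set_option maxSynthPendingDepth 3

open scoped Manifold ContDiff
open MeasureTheory Set Topology Filter

namespace Vale.Agent.P354p

open Vale.Agent.P354 (P4 P3 norm_P4_le NearM Gram Tv cone mem_cone SCurve)
open Vale.Agent.P354w (MC SHypC CBdW EHyp corner_exit)

/-- **Corners.** If an extension passes through a corner then it passes through one of the two
null hypersurfaces nearby. -/
theorem corner_stepE {pp : ENNReal} (hpp : 2 ≤ pp) {M N : Spc} {ι : M.pt → N.pt} (hM : IsSpacetime IsSmooth M)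
    (hg' : IsSpacetime (IsC0W1 pp) N) (h : IsOpenEmbedding ι) (hI : IsIsom ι) {c : ℝ → N.pt}
    (hc : IsFutureCurve N 0 (Icc 0 1) c) {a : ℝ → M.pt} (ha : ∀ t ∈ Ico (0:ℝ) 1, ι (a t) = c t)
    {e : M.Chart} {C : ℕ → R4 → ℝ} {z0 : R4} {r K : ℝ} {k : ℝ → ℝ}
    (hB : IsDNBox M e C (cornerBox z0 r) r K k k) (hu0 : cu z0 = 0) (hv0 : cv z0 = 0)
    (hain : EndsAt a e (cornerBox z0 r) z0) :
    ∃ (a' : ℝ → M.pt) (c' : ℝ → N.pt), IsFutureCurve N 0 (Icc 0 1) c' ∧
      (∀ t ∈ Ico (0:ℝ) 1, ι (a' t) = c' t) ∧ IsFutureCurve M 0 (Ico 0 1) a' ∧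
      ∃ y, EndsAt a' e (cornerBox z0 r) y ∧ ‖y - z0‖ < r ∧ cu y * cv y = 0 ∧
        cu y + cv y < 0 := by
  have hne : Nonempty M.pt := ⟨a 0⟩
  obtain ⟨e', hp⟩ := N.cover (c 1)
  replace hp : On e' (c 1) := hp
  have hy0 : co e' (c 1) ∈ tgt e' := co_mem hp
  obtain ⟨A, hA, lam, hl, hAT⟩ := exists_A hg' hy0 (endVel_timelike hp hc)
  have hTneg : N.g e' (co e' (c 1)) (A Tv) (N.X e' (co e' (c 1))) < 0 := by
    have h1 : A Tv = lam • endVel e' c := hAT
    rw [h1, (hg'.bilin e' hy0).smul_left]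
    exact mul_neg_of_pos_of_neg hl (endVel_future hp hc)
  obtain ⟨R0, hR0, hR, hnear⟩ := exists_R0 hg' hy0 A hA hTneg
  have hnear1 : ∀ z ∈ Metric.ball (0 : R4) R0, NearM (Gf (comp e') (co e' (c 1)) A z) :=
    fun z hz => (hnear z hz).1
  have hnear2 : ∀ z ∈ Metric.ball (0 : R4) R0,
      N.g e' (yv (co e' (c 1)) A z) (A Tv) (N.X e' (yv (co e' (c 1)) A z)) < 0 :=
    fun z hz => (hnear z hz).2.1
  have hr := hB.r_pos
  have hK1 : 1 ≤ K := (hB.bounded (base_mem_cornerBox hu0 hv0 hr)).K_one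
  have hK0 : 0 < K := by linarith
  have hopen : IsOpen (VV e e' ι h (cornerBox z0 r) (co e' (c 1)) A R0) :=
    VV_isOpen (cornerBox_isOpen z0 r)
  have hp0v : (Sp z0).2.1 = 0 := hv0
  have hp0u : (Sp z0).2.2.1 = 0 := hu0
  have H : SHypC (toW C) (Gf (comp e') (co e' (c 1)) A) (PsiF e e' ι h (co e' (c 1)) A)
      (VV e e' ι h (cornerBox z0 r) (co e' (c 1)) A R0) R0 r K (Sp z0) := by
    refine
      { iso := IsoW_mono (Psi_IsoW hM hg' hI (cornerBox_isOpen z0 r)
          (fun x hx => (hB.box x hx).1) (fun x hx i => hB.diff (cornerBox_isOpen z0 r) hx i) _ A)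
          hopen inter_subset_left
        R0_pos := hR0, ρ_pos := hr, p0v := hp0v, p0u := hp0u, V_sub := inter_subset_right
        near := hnear1, maps := fun z hz => Sp_mem_MC.2 hz.1.2
        beta := fun z hz => Psi_beta hM hg' hI (fun x hx => (hB.box x hx).1)
          (fun x hx => (hB.bounded hx).om_pos) (fun x hx => (hB.box x hx).2.1) hnear1 hnear2 hz
        cl := ?_, one_le := hK1, bd := ?_ }
    · intro Kc hKc hKM
      exact closed_pre (h := h) h.continuous hB.subset hR hKc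
        (fun y hy => Sp_symm_mem_MC.1 (hKM hy))
    · intro y hy
      have h1 := (hB.bounded (Sp_symm_mem_MC.1 hy)).cbd (le_refl K)
      rwa [ContinuousLinearEquiv.apply_symm_apply] at h1
  set η1 : ℝ := r / (10 * K) with hη1
  have hη1pos : 0 < η1 := by positivity
  have hη : 5 * K * η1 = r / 2 := by rw [hη1]; field_simp; ring
  obtain ⟨γ, s0, hcurve⟩ := mkSCurve (h := h) (R0 := R0) hp hc hl hAT hR0 ha hain hη1pos
  have hCc1 : 4 * K ^ 4 ≤ 6 * K ^ 4 := by
    have : 0 ≤ K ^ 4 := by positivity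
    linarith only [this]
  have hCc2 : 6 * K ^ 2 ≤ 6 * K ^ 4 := by
    have : K ^ 2 ≤ K ^ 4 := pow_le_pow_right₀ hK1 (by norm_num)
    linarith only [this]
  have hsm : (toW C).SmoothOn (MC (Sp z0) r) := by
    have h1 := smoothW hB.smooth
    rwa [Sp_image_cornerBox] at h1
  have hk := hB.intg k (Or.inl rfl)
  have hE : EHyp (Gf (comp e') (co e' (c 1)) A)
      (VV e e' ι h (cornerBox z0 r) (co e' (c 1)) A R0) R0 :=
    { det := fun z hz => (hnear z hz.2).2.2
      energy := fun D hDV hDo hDR => energy_DD (h := h) hpp hM hg' hI hR hR0 hDo hDV hDR }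
  obtain ⟨t0, b, x, q, htb, hV, hbd, hq, hqn, hq0⟩ := corner_exit (cv := cvF r K k)
    (cw := cvF r K k) (cu := cvF r K k) H hcurve (by rw [hη]; linarith only [hr]) Psi_injOn hsm hCc1
    (fun y hy => by
      have hx := Sp_symm_mem_MC.1 hy
      have h1 := (hB.bounded hx).bd (fun i _ => hB.diff (cornerBox_isOpen z0 r) hx i) hCc2
      rw [ContinuousLinearEquiv.apply_symm_apply] at h1
      rw [cvF_of_mem (MC_v hp0v hy), cvF_of_mem (MC_u hp0u hy)]
      exact h1)
    (cvF_meas hk.1) (cvF_meas hk.1) (cvF_meas hk.1) (cvF_int hk.2 _) (cvF_int hk.2 _)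
    (cvF_int hk.2 _) hE
  have hbb : ((b, x) : P4) ∈ Metric.ball (0 : R4) R0 := by
    have := hbd b ⟨htb.le, le_rfl⟩
    rw [mem_ball_zero_iff]
    exact this.trans_lt (by linarith only [hR0])
  obtain ⟨a', c', hc', ha', hend⟩ := line_endsAt hg' hR hnear1 hnear2 hB.subset htb hV hbb hq
  refine ⟨a', c', hc', ha', ray_of_curve hM hg' h hI hc' ha', _, hend, ?_, ?_, ?_⟩
  · have h1 : Sp (Sp.symm q - z0) = q - Sp z0 := by
      rw [map_sub, ContinuousLinearEquiv.apply_symm_apply]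
    rw [← norm_Sp, h1]
    exact hqn.trans_lt (by rw [hη]; linarith only [hr])
  · have h1 : cu (Sp.symm q) * cv (Sp.symm q) = q.2.2.1 * q.2.1 := rfl
    rw [h1]
    rcases hq0 with hh | hh
    · rw [hh.1, mul_zero]
    · rw [hh.2, zero_mul]
  · have h1 : cu (Sp.symm q) + cv (Sp.symm q) = q.2.2.1 + q.2.1 := rfl
    rw [h1]
    rcases hq0 with hh | hh <;> linarith only [hh.1, hh.2]

end Vale.Agent.P354p
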