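import Vale.Agent.P354p.QFront
import Vale.Agent.P354z.Lp5

set_option linter.unusedSectionVars false
set_option maxSynthPendingDepth 3

open scoped Manifold ContDiff
open MeasureTheory Set Topology Filter

namespace Vale.Agent.P354p

open Vale.Agent.P354 (P4 P3 norm_P4_le MB)
open Vale.Agent.P354x (ins chi4 PtW)

section
variable {M : Spc} {e : M.Chart} {C : ℕ → R4 → ℝ} {z0 : R4} {r K : ℝ} {k : ℝ → ℝ}

/-- Oscillation of the v derivative from the bound of its derivatives. -/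
lemma lip_gronL (hB : FrontBox M e C z0 r K k) {l : ℝ → ℝ} {L : ℝ} (hL : 1 ≤ L)
    (hd : ∀ x ∈ nullBox z0 r, ∀ b, cv b = 0 → ∀ i < 3, ∃ j < 3,
      |deriv (fun y => deriv (C i) y dv) x b| ≤ (l (cv x) + L * |deriv (C j) x dv|) * ‖b‖)
    {x y : R4} (hx : x ∈ nullBox z0 r) (hy : y ∈ nullBox z0 r) (hxy : cv x = cv y)
    (hs : 6 * L * ‖x - y‖ ≤ 1) {i : ℕ} (hi : i < 3) :
    |deriv (C i) x dv - deriv (C i) y dv| ≤ 2 * (|l (cv x)| + L * SS C y) * ‖x - y‖ := by
  set b := x - y with hb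
  have hb0 : cv b = 0 := by
    have : cv b = cv x - cv y := rfl
    rw [this, hxy, sub_self]
  have hO := nullBox_isOpen z0 r
  have hsm2 : ∀ i, ContDiffOn ℝ 1 (fun x => deriv (C i) x dv) (nullBox z0 r) := fun i =>
    (((hB.dn.smooth i).fderiv_of_isOpen hO (m := 1) (by norm_cast)).clm_apply
      contDiffOn_const).congr (fun w hw => deriv_eq (hB.diff hw i) dv)
  have hseg : ∀ τ ∈ Icc (0:ℝ) 1, y + τ • b ∈ nullBox z0 r ∧ cv (y + τ • b) = cv x := by
    intro τ hτ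
    have h1 : cv (y + τ • b) = cv x := by
      have : cv (y + τ • b) = cv y + τ * cv b := rfl
      rw [this, hb0, mul_zero, add_zero, hxy]
    refine ⟨⟨?_, by rw [h1]; exact hx.2⟩, h1⟩
    have h2 : y ∈ Metric.ball z0 r := by simpa [dist_eq_norm] using hy.1
    have h3 : x ∈ Metric.ball z0 r := by simpa only [Metric.mem_ball, dist_eq_norm] using hx.1
    have h4 := (convex_ball z0 r).add_smul_sub_mem h2 h3 hτ
    simpa only [gt_iff_lt, Metric.mem_ball, dist_eq_norm] using h4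
  have hdd : ∀ i, ∀ τ ∈ Icc (0:ℝ) 1, HasDerivAt (fun τ : ℝ => deriv (C i) (y + τ • b) dv)
      (fderiv ℝ (fun x => deriv (C i) x dv) (y + τ • b) b) τ := by
    intro i τ hτ
    have h1 := (((hsm2 i).differentiableOn (by norm_num)).differentiableAt
      (hO.mem_nhds (hseg τ hτ).1)).hasFDerivAt
    have h2 : HasDerivAt (fun τ : ℝ => y + τ • b) b τ := by
      simpa using ((hasDerivAt_id τ).smul_const b).const_add y
    exact h1.comp_hasDerivAt τ h2
  have hcont : ∀ i, ContinuousOn (fun τ : ℝ => deriv (C i) (y + τ • b) dv) (Icc 0 1) :=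
    fun i τ hτ => (hdd i τ hτ).continuousAt.continuousWithinAt
  have hSc : ContinuousOn (fun τ : ℝ => SS C (y + τ • b)) (Icc 0 1) := by
    unfold SS
    exact (((hcont 0).abs.add (hcont 1).abs).add (hcont 2).abs)
  obtain ⟨τs, hτs, hmax⟩ := isCompact_Icc.exists_isMaxOn ⟨0, by simp only [mem_Icc, Std.le_refl, zero_le_one, and_self]⟩ hSc
  set N := SS C (y + τs • b) with hN
  have hN0 : 0 ≤ N := by rw [hN]; unfold SS; positivity
  set Ml := (|l (cv x)| + L * N) * ‖b‖ with hMl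
  have hMl0 : 0 ≤ Ml := by positivity
  have hmv : ∀ i < 3, ∀ τ ∈ Icc (0:ℝ) 1,
      |deriv (C i) (y + τ • b) dv - deriv (C i) y dv| ≤ Ml := by
    intro i hi τ hτ
    have hsub : ∀ s ∈ Icc (0:ℝ) τ, s ∈ Icc (0:ℝ) 1 := fun s hs => ⟨hs.1, hs.2.trans hτ.2⟩
    have hg : ∀ s ∈ Icc (0:ℝ) τ, HasDerivAt (fun s : ℝ => Ml * s) Ml s := by
      intro s _
      simpa using (hasDerivAt_id s).const_mul Ml
    have key := P354.norm_sub_le_of_deriv hτ.1 (fun s hs => hdd i s (hsub s hs)) hg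
      (fun s hs => by
        obtain ⟨h0, h0'⟩ := hseg s (hsub s hs)
        obtain ⟨j, hj, h1⟩ := hd _ h0 b hb0 i hi
        rw [deriv_eq (((hsm2 i).differentiableOn (by norm_num)).differentiableAt
          (hO.mem_nhds h0)), h0'] at h1
        rw [Real.norm_eq_abs]
        refine h1.trans ?_
        have h2 : |deriv (C j) (y + s • b) dv| ≤ N :=
          (le_SS hj _).trans (hmax (hsub s hs))
        have h3 : l (cv x) ≤ |l (cv x)| := le_abs_self _
        rw [hMl]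
        gcongr)
    simp only [zero_smul, add_zero, mul_zero, sub_zero] at key
    rw [Real.norm_eq_abs] at key
    calc |deriv (C i) (y + τ • b) dv - deriv (C i) y dv| ≤ Ml * τ := key
      _ ≤ Ml * 1 := by gcongr; exact hτ.2
      _ = Ml := mul_one _
  have hS : N ≤ SS C y + 3 * Ml := by
    have k0 := hmv 0 (by norm_num) τs hτs
    have k1 := hmv 1 (by norm_num) τs hτs
    have k2 := hmv 2 (by norm_num) τs hτs
    have tri : ∀ s t m : ℝ, |s - t| ≤ m → |s| ≤ |t| + m := by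
      intro s t m h
      have := abs_sub_abs_le_abs_sub s t
      linarith only [h, this]
    have := tri _ _ _ k0
    have := tri _ _ _ k1
    have := tri _ _ _ k2
    rw [hN]
    unfold SS
    linarith
  have hbn : 0 ≤ ‖b‖ := norm_nonneg b
  have hl0 : 0 ≤ |l (cv x)| := abs_nonneg _
  have hS0 : 0 ≤ SS C y := by unfold SS; positivity
  have hN2 : N ≤ 2 * SS C y + 6 * |l (cv x)| * ‖b‖ := by
    have h1 : 3 * Ml = 3 * |l (cv x)| * ‖b‖ + (6 * L * ‖b‖) * N / 2 := by rw [hMl]; ring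
    have h2 : (6 * L * ‖b‖) * N ≤ 1 * N := by gcongr
    linarith only [hS, h2]
  have key := hmv i hi 1 (by simp only [mem_Icc, zero_le_one, Std.le_refl, and_self])
  rw [one_smul] at key
  have e1 : y + b = x := by rw [hb]; abel
  rw [e1] at key
  refine key.trans ?_
  calc Ml ≤ (|l (cv x)| + L * (2 * SS C y + 6 * |l (cv x)| * ‖b‖)) * ‖b‖ := by
        rw [hMl]; gcongr
    _ = (|l (cv x)| * (1 + 6 * L * ‖b‖) + 2 * L * SS C y) * ‖b‖ := by ring
    _ ≤ (|l (cv x)| * (1 + 1) + 2 * L * SS C y) * ‖b‖ := by gcongr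
    _ = _ := by ring

/-- the oscillation of the derivatives in the direction e4 near a line -/
lemma osc4L (hB : FrontBox M e C z0 r K k) {l : ℝ → ℝ} {z1 : R4} {ε : ℝ} (hε : 0 < ε) (hε1 : ε ≤ 1)
    (hz1 : cv z1 = 0) (hsub : nullBox z1 ε ⊆ nullBox z0 r) (hεr : ε ≤ r)
    (hd : ∀ x ∈ nullBox z1 ε, ∀ b, cv b = 0 → ∀ i < 3, ∃ j < 3,
      ε * |deriv (fun y => deriv (C i) y dv) x b| ≤ (l (cv x) + |deriv (C j) x dv|) * ‖b‖)
    {v : ℝ} {y y' : P354w.P3} (hy : Sp.symm (ins v y) ∈ nullBox z1 ε)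
    (hy' : Sp.symm (ins v y') ∈ nullBox z1 ε)
    (h1 : ‖y - y'‖ < ε / 200) (h2 : |Real.sqrt (|l v|)| * ‖y - y'‖ < ε / 200)
    {i : ℕ} (hi : i < 3) :
    |fderiv ℝ (fun z => 4 * C i (Sp.symm z)) (ins v y)
        (P354w.e4 ((toW C).scale 4) (ins v y)) -
      fderiv ℝ (fun z => 4 * C i (Sp.symm z)) (ins v y')
        (P354w.e4 ((toW C).scale 4) (ins v y'))| ≤
      chi4 ((toW C).scale 4) (ins v y') / 56 + (9 * K ^ 2) * (1 + |Real.sqrt (|l v|)|) := by
  have hK := hB.K_one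
  have k1 := e4_dv hB (Sp_symm_mem.2 (hsub hy)) hi
  have k2 := e4_dv hB (Sp_symm_mem.2 (hsub hy')) hi
  have hc : cv (Sp.symm (ins v y)) = v := rfl
  have hn : ‖Sp.symm (ins v y) - Sp.symm (ins v y')‖ = ‖y - y'‖ := by
    rw [← map_sub, ← norm_Sp, ContinuousLinearEquiv.apply_symm_apply]
    have e1 : ins v y - ins v y' = ins 0 (y - y') := by
      unfold ins
      ext <;> simp only [Prod.mk.eta, Prod.mk_sub_mk, sub_self, Prod.fst_sub, Prod.snd_sub]
    rw [e1]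
    unfold ins
    simp only [Prod.norm_def, norm_zero, Prod.fst_sub, Prod.snd_sub]
    have hb : 0 ≤ max ‖y.2.1 - y'.2.1‖ ‖y.2.2 - y'.2.2‖ :=
      le_max_of_le_left (norm_nonneg _)
    rw [max_eq_right hb]
  have hb0 : 0 ≤ ‖y - y'‖ := norm_nonneg _
  set L : ℝ := ε⁻¹ with hLd
  have hL1 : 1 ≤ L := (one_le_inv₀ hε).2 hε1
  have hL0 : 0 < L := by linarith only [hL1]
  have hLε : L * ε = 1 := inv_mul_cancel₀ hε.ne'
  have hKb : L * ‖y - y'‖ ≤ 1 / 200 := by
    calc L * ‖y - y'‖ ≤ L * (ε / 200) := by gcongr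
      _ = (L * ε) / 200 := by ring
      _ = _ := by rw [hLε]
  have k3 := lip_gronL (hB.mono hz1 hsub hε hεr) (l := fun v => L * l v) hL1
    (fun x hx b hb i hi => by
      obtain ⟨j, hj, h3⟩ := hd x hx b hb i hi
      refine ⟨j, hj, ?_⟩
      calc |deriv (fun y => deriv (C i) y dv) x b|
          = L * (ε * |deriv (fun y => deriv (C i) y dv) x b|) := by
            rw [← mul_assoc, hLε, one_mul]
        _ ≤ L * ((l (cv x) + |deriv (C j) x dv|) * ‖b‖) := by gcongr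
        _ = _ := by ring) hy hy' rfl (by rw [hn]; linarith only [hKb]) hi
  rw [hc, hn, abs_mul, abs_of_pos hL0] at k3
  set s := Real.sqrt (|l v|) with hs
  have hs0 : 0 ≤ s := Real.sqrt_nonneg _
  have hss : |l v| = s * s := (Real.mul_self_sqrt (abs_nonneg _)).symm
  rw [abs_of_nonneg hs0] at h2 ⊢
  have hsb : L * (s * ‖y - y'‖) ≤ 1 / 200 := by
    calc L * (s * ‖y - y'‖) ≤ L * (ε / 200) := by gcongr
      _ = (L * ε) / 200 := by ring
      _ = _ := by rw [hLε]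
  set χ := chi4 ((toW C).scale 4) (ins v y') with hχ
  have hSχ : 4 * SS C (Sp.symm (ins v y')) ≤ χ + 12 * K ^ 2 := by
    have hy2 := Sp_symm_mem.2 (hsub hy')
    have j0 := e4_dv hB hy2 (i := 0) (by norm_num)
    have j1 := e4_dv hB hy2 (i := 1) (by norm_num)
    have j2 := e4_dv hB hy2 (i := 2) (by norm_num)
    have e11 : χ = |fderiv ℝ (fun z => 4 * C 0 (Sp.symm z)) (ins v y')
          (P354w.e4 ((toW C).scale 4) (ins v y'))| +
        |fderiv ℝ (fun z => 4 * C 1 (Sp.symm z)) (ins v y')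
          (P354w.e4 ((toW C).scale 4) (ins v y'))| +
        |fderiv ℝ (fun z => 4 * C 2 (Sp.symm z)) (ins v y')
          (P354w.e4 ((toW C).scale 4) (ins v y'))| := rfl
    have tri : ∀ s t m : ℝ, |s - 4 * t| ≤ m → 4 * |t| ≤ |s| + m := by
      intro s t m h
      have h0 := abs_sub_abs_le_abs_sub (4 * t) s
      rw [abs_sub_comm, abs_mul, abs_of_pos (by norm_num : (0:ℝ) < 4)] at h0
      linarith only [h, h0]
    have := tri _ _ _ j0
    have := tri _ _ _ j1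
    have := tri _ _ _ j2
    rw [e11]
    unfold SS
    linarith
  have hχ0 : 0 ≤ χ := by rw [hχ]; unfold P354x.chi4; positivity
  set S := SS C (Sp.symm (ins v y')) with hSd
  have hS0 : 0 ≤ S := by rw [hSd]; unfold SS; positivity
  have m1 : 4 * (2 * (L * |l v| + L * S) * ‖y - y'‖) ≤ s + (χ + 12 * K ^ 2) / 100 := by
    have e : 4 * (2 * (L * |l v| + L * S) * ‖y - y'‖) =
        8 * s * (L * (s * ‖y - y'‖)) + 2 * (L * ‖y - y'‖) * (4 * S) := by rw [hss]; ring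
    rw [e]
    have a1 : 8 * s * (L * (s * ‖y - y'‖)) ≤ 8 * s * (1 / 200) := by gcongr
    have a2 : 2 * (L * ‖y - y'‖) * (4 * S) ≤ 2 * (1 / 200) * (χ + 12 * K ^ 2) := by gcongr
    linarith only [hs0, a1, a2]
  have m2 : 9 * K ^ 2 * (1 + s) = 9 * K ^ 2 + 9 * K ^ 2 * s := by ring
  have m3 : s ≤ 9 * K ^ 2 * s := by
    have : 1 ≤ 9 * K ^ 2 := by nlinarith only [hK]
    nlinarith only [hs0, this]
  have m4 : 4 * |deriv (C i) (Sp.symm (ins v y)) dv - deriv (C i) (Sp.symm (ins v y')) dv| ≤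
      s + (χ + 12 * K ^ 2) / 100 := (mul_le_mul_of_nonneg_left k3 (by norm_num)).trans m1
  have hK2 : 0 ≤ K ^ 2 := by positivity
  rw [m2]
  rw [abs_le] at k1 k2 ⊢
  have m5 := neg_abs_le (deriv (C i) (Sp.symm (ins v y)) dv - deriv (C i) (Sp.symm (ins v y')) dv)
  have m6 := le_abs_self (deriv (C i) (Sp.symm (ins v y)) dv - deriv (C i) (Sp.symm (ins v y')) dv)
  constructor <;> linarith only [k1, k2, hχ0, k3, m1, m3, m5, m6]

end

/-- Almost no line over the covered open set is bad. -/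
theorem bad_null {pp : ENNReal} (hpp : 2 ≤ pp) {M N : Spc} {ι : M.pt → N.pt}
    {h : IsOpenEmbedding ι} [Nonempty M.pt] {e : M.Chart} {C : ℕ → R4 → ℝ} {z : R4} {r K : ℝ}
    {k l : ℝ → ℝ} {p : N.pt} {e' : N.Chart} {A : R4 ≃L[ℝ] R4} {R0 Cc t0 r1 : ℝ} {f : P3 → ℝ}
    (hB : FrontBox M e C z r K k) (hlm : Measurable l) (hlp : InLp (pp / 2) l (-r))
    (hF : FrontData pp M N ι h e C z r K k p e' A R0 Cc t0 r1 f) {O : Set P354w.P3}
    (hO : IsOpen O) {v0 : ℝ} (hv0 : v0 < 0)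
    (hin : ∀ y ∈ O, ∀ v ∈ Ico v0 0, ∃ z ∈ P354w.DD t0 r1 f,
      PsiF e e' ι h (co e' p) A z = ins v y ∧ ‖z.2‖ ≤ r1 / 4) :
    ∀ᵐ w : R4, w ∈ nullBox z r → ((w.2.2.1, w.1, w.2.2.2) : P354w.P3) ∈ O →
      (∀ b < 0, ∃ i < 3, ¬ InLp pp (fun v => deriv (C i) (w + (v - cv w) • dv) dv) b) →
      ∀ ε > 0, ¬ ∀ x ∈ nullBox (w - cv w • dv) ε, ∀ b, cv b = 0 → ∀ i < 3, ∃ j < 3,
        ε * |deriv (fun y => deriv (C i) y dv) x b| ≤ (l (cv x) + |deriv (C j) x dv|) * ‖b‖ := by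
  have hr := hB.dn.r_pos
  have hK := hB.K_one
  have hCc := hF.Cc_large
  have hz := hB.base
  have hG : P354z.LpF pp (volume.restrict (P354w.DD t0 r1 f))
      (fun w => ‖fderiv ℝ (fun z => (4:ℝ) • Gf (comp e') (co e' p) A z) w‖ₑ) := by
    have h1 := hF.lp.norm.2
    have h2 := (P354z.LpF_iff hpp).2 h1.ne
    refine h2.mono fun w => ?_
    rw [enorm_norm]
  have hl' : P354z.LpF pp (volume.restrict (Ico (-r / 2) 0)) (fun v => ‖Real.sqrt (|l v|)‖ₑ) := by
    refine (P354z.LpF_sqrt hpp hlp.ne).mono_meas ?_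
    refine Measure.restrict_mono ?_ le_rfl
    intro v hv
    exact ⟨by linarith only [hr, hv.1], hv.2⟩
  obtain ⟨v1, hv1, -, hgen⟩ := P354z.openPl hF.core (fun y hy => ptw hB hCc hy)
    (cvF_int (hB.dn.intg k (Or.inl rfl)).2 _)
    (cvF_int (hB.dn.intg k (Or.inl rfl)).2 _)
    (by
      rw [setLIntegral_const]
      exact ENNReal.mul_ne_top ENNReal.ofReal_ne_top (by simp only [Real.volume_Icc, sub_neg_eq_add, ne_eq, ENNReal.ofReal_ne_top, not_false_eq_true]))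
    (fun _ => by nlinarith only [hK, hCc]) hpp hG (l := fun v => Real.sqrt (|l v|)) hlm.abs.sqrt
    (va := -r / 2) (by linarith only [hr]) hl' hO hv0 hin
  filter_upwards [ae_line hgen] with w hw hwz hwO hbad ε0 hε0 htan
  set y0 : P354w.P3 := (w.2.2.1, w.1, w.2.2.2) with hy0
  set z1 : R4 := w - cv w • dv with hz1
  have hcz1 : cv z1 = 0 := by simp only [cv, hz1, dv, Prod.smul_mk, smul_eq_mul, mul_zero, mul_one, Prod.snd_sub, Prod.fst_sub, sub_self]
  have hz1r : ‖z1 - z‖ < r := by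
    have h1 := norm_P4_le.1 (le_refl ‖w - z‖)
    refine lt_of_le_of_lt (norm_P4_le.2 ?_) hwz.1
    have hz' : z.2.1 = 0 := hz
    simp only [Prod.fst_sub, Prod.snd_sub] at h1
    refine ⟨?_, ?_, ?_, ?_⟩
    · simpa only [hz1, dv, Prod.smul_mk, smul_eq_mul, mul_zero, mul_one, Prod.fst_sub, sub_zero] using h1.1
    · simp only [hz1, cv, dv, Prod.smul_mk, smul_eq_mul, mul_zero, mul_one, Prod.snd_sub, Prod.fst_sub, sub_self, hz', abs_zero, norm_nonneg]
    · simpa only [hz1, dv, Prod.smul_mk, smul_eq_mul, mul_zero, mul_one, Prod.snd_sub, Prod.fst_sub, sub_zero] using h1.2.2.1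
    · simpa only [hz1, dv, Prod.smul_mk, smul_eq_mul, mul_zero, mul_one, Prod.snd_sub, sub_zero] using h1.2.2.2
  obtain ⟨ε, hε, hεε0, hε1, hεr⟩ : ∃ ε > 0, ε ≤ ε0 ∧ ε ≤ 1 ∧ ε ≤ r - ‖z1 - z‖ :=
    ⟨min ε0 (min 1 (r - ‖z1 - z‖)), lt_min hε0 (lt_min one_pos (by linarith)),
      min_le_left _ _, (min_le_right _ _).trans (min_le_left _ _),
      (min_le_right _ _).trans (min_le_right _ _)⟩
  have hsub : nullBox z1 ε ⊆ nullBox z r := by
    rintro x ⟨hx, hxv⟩
    refine ⟨?_, hxv⟩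
    have h1 : x - z = (x - z1) + (z1 - z) := by abel
    rw [h1]
    exact (norm_add_le _ _).trans_lt (by linarith only [hεr, hx])
  have hεr' : ε ≤ r := by have := norm_nonneg (z1 - z); linarith
  have htan' : ∀ x ∈ nullBox z1 ε, ∀ b, cv b = 0 → ∀ i < 3, ∃ j < 3,
      ε * |deriv (fun y => deriv (C i) y dv) x b| ≤ (l (cv x) + |deriv (C j) x dv|) * ‖b‖ := by
    intro x hx b hb i hi
    obtain ⟨j, hj, h1⟩ := htan x ⟨hx.1.trans_le hεε0, hx.2⟩ b hb i hi
    refine ⟨j, hj, le_trans ?_ h1⟩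
    gcongr
  -- the interval
  obtain ⟨v2, hv2, hv2ε⟩ : ∃ v2 ∈ Ico v1 0, -ε < v2 :=
    ⟨max v1 (-ε / 2), ⟨le_max_left _ _, max_lt hv1.2 (by linarith only [hε])⟩,
      lt_of_lt_of_le (by linarith only [hε]) (le_max_right _ _)⟩
  have hmem : ∀ v ∈ Ico v2 0, ∀ y : P354w.P3, ‖y - y0‖ < ε → Sp.symm (ins v y) ∈ nullBox z1 ε := by
    intro v hv y hy
    refine ⟨?_, hv.2⟩
    have h1 : ‖(y - y0)‖ < ε := hy
    have h2 : |y.1 - y0.1| < ε := (norm_fst_le (y - y0)).trans_lt h1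
    have h3 : |y.2.1 - y0.2.1| < ε :=
      ((norm_fst_le (y - y0).2).trans (norm_snd_le (y - y0))).trans_lt h1
    have h4 : |y.2.2 - y0.2.2| < ε :=
      ((norm_snd_le (y - y0).2).trans (norm_snd_le (y - y0))).trans_lt h1
    have h5 : |v| < ε := by rw [abs_lt]; constructor <;> linarith only [hv2ε, hv.1, hε, hv.2]
    have e1 : Sp.symm (ins v y) - z1 = (y.2.1 - y0.2.1, v, y.1 - y0.1, y.2.2 - y0.2.2) := by
      rw [Sp_symm_apply]
      ext <;> simp only [ins, Prod.mk.eta, hz1, cv, dv, Prod.smul_mk, smul_eq_mul, mul_zero, mul_one, Prod.fst_sub, sub_zero, hy0, Prod.snd_sub, sub_self]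
    rw [e1]
    simp only [Prod.norm_def, Real.norm_eq_abs]
    exact max_lt h3 (max_lt h5 (max_lt h2 h4))
  have hy00 : ‖y0 - y0‖ < ε := by rw [sub_self, norm_zero]; exact hε
  have hfin := hw hwO (9 * K ^ 2) (ε / 200) (by positivity) (by positivity) v2 hv2
    (fun v hv y _ _ h1 h2 => by
      have m1 := hmem v hv y (by linarith only [hε, h1])
      have m2 := hmem v hv y0 hy00
      exact ⟨osc4L hB hε hε1 hcz1 hsub hεr' htan' m1 m2 h1 h2 (i := 0) (by norm_num),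
        osc4L hB hε hε1 hcz1 hsub hεr' htan' m1 m2 h1 h2 (i := 1) (by norm_num),
        osc4L hB hε hε1 hcz1 hsub hεr' htan' m1 m2 h1 h2 (i := 2) (by norm_num)⟩)
  obtain ⟨i, hi, hitop⟩ := hbad v2 hv2.2
  apply hitop
  show eLpNorm _ pp (volume.restrict (Ioo v2 0)) < ⊤
  rw [lt_top_iff_ne_top, ← P354z.LpF_iff hpp]
  have hvol : (volume.restrict (Ioo v2 0)) univ ≠ ⊤ := by
    rw [Measure.restrict_apply MeasurableSet.univ, univ_inter, Real.volume_Ioo]
    exact ENNReal.ofReal_ne_top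
  have hfin2 : P354z.LpF pp (volume.restrict (Ioo v2 0)) (fun v => ENNReal.ofReal (K ^ 2) +
      ENNReal.ofReal (chi4 ((toW C).scale 4) (ins v y0))) :=
    P354z.LpF.add (P354z.LpF.const hvol ENNReal.ofReal_ne_top)
      (hfin.mono_meas (Measure.restrict_mono Ioo_subset_Ico_self le_rfl)) hpp aemeasurable_const
  refine hfin2.mono_ae ?_
  rw [ae_restrict_iff' measurableSet_Ioo]
  refine Filter.Eventually.of_forall fun v hv => ?_
  have e1 : w + (v - cv w) • dv = Sp.symm (ins v y0) := by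
    rw [Sp_symm_apply]
    ext <;> simp only [cv, dv, Prod.smul_mk, smul_eq_mul, mul_zero, mul_one, Prod.fst_add, add_zero, ins, hy0, Prod.snd_add, add_sub_cancel]
  rw [e1]
  have hMB := Sp_symm_mem.2 (hsub (hmem v ⟨hv.1.le, hv.2⟩ y0 hy00))
  have h1 := e4_dv hB hMB hi
  have h2 : |fderiv ℝ (fun z => 4 * C i (Sp.symm z)) (ins v y0)
      (P354w.e4 ((toW C).scale 4) (ins v y0))| ≤ chi4 ((toW C).scale 4) (ins v y0) := by
    have e11 : chi4 ((toW C).scale 4) (ins v y0) =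
      |fderiv ℝ (fun z => 4 * C 0 (Sp.symm z)) (ins v y0)
        (P354w.e4 ((toW C).scale 4) (ins v y0))| +
      |fderiv ℝ (fun z => 4 * C 1 (Sp.symm z)) (ins v y0)
        (P354w.e4 ((toW C).scale 4) (ins v y0))| +
      |fderiv ℝ (fun z => 4 * C 2 (Sp.symm z)) (ins v y0)
        (P354w.e4 ((toW C).scale 4) (ins v y0))| := rfl
    rw [e11]
    have a0 := abs_nonneg (fderiv ℝ (fun z => 4 * C 0 (Sp.symm z)) (ins v y0)
        (P354w.e4 ((toW C).scale 4) (ins v y0)))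
    have a1 := abs_nonneg (fderiv ℝ (fun z => 4 * C 1 (Sp.symm z)) (ins v y0)
        (P354w.e4 ((toW C).scale 4) (ins v y0)))
    have a2 := abs_nonneg (fderiv ℝ (fun z => 4 * C 2 (Sp.symm z)) (ins v y0)
        (P354w.e4 ((toW C).scale 4) (ins v y0)))
    interval_cases i <;> linarith only [a1, a2, a0]
  have h3 : |deriv (C i) (Sp.symm (ins v y0)) dv| ≤
      K ^ 2 + chi4 ((toW C).scale 4) (ins v y0) := by
    have h4 := abs_nonneg (fderiv ℝ (fun z => 4 * C i (Sp.symm z)) (ins v y0)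
      (P354w.e4 ((toW C).scale 4) (ins v y0)))
    rw [abs_le] at h1 h2 ⊢
    constructor <;> linarith only [h1, h2]
  have hchi : 0 ≤ chi4 ((toW C).scale 4) (ins v y0) := by unfold P354x.chi4; positivity
  rw [← ofReal_norm, Real.norm_eq_abs, ← ENNReal.ofReal_add (by positivity) hchi]
  exact ENNReal.ofReal_le_ofReal h3

end Vale.Agent.P354p
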